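import Mathlib

open scoped ContDiff
open MeasureTheory Set

namespace Vale.Agent.H20.P204

/-- four-space -/
abbrev E := Fin 4 → ℝ

/-- the first coordinate -/
noncomputable abbrev al : E →L[ℝ] ℝ := ContinuousLinearMap.proj 0

noncomputable def bvec (J : E →L[ℝ] E) : E := fun i => if i = 0 then 0 else (J (Pi.single i 1)) 0

noncomputable def Bn (J : E →L[ℝ] E) : ℝ := ∑ i, (bvec J i) ^ 2

noncomputable def xi (J : E →L[ℝ] E) : E :=
  Pi.single 0 1 - ((J (Pi.single 0 1)) 0 / Bn J) • bvec J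

noncomputable def be (J : E →L[ℝ] E) : E →L[ℝ] ℝ := al.comp J

noncomputable def pr (J : E →L[ℝ] E) : E →L[ℝ] E :=
  ContinuousLinearMap.id ℝ E - al.smulRight (xi J) + (be J).smulRight (J (xi J))

noncomputable def et (C : E →L[ℝ] E →L[ℝ] ℝ) (J : E →L[ℝ] E) : E →L[ℝ] ℝ :=
  (C.flip (J (xi J))).comp (pr J)

noncomputable def form (C : E →L[ℝ] E →L[ℝ] ℝ) (h : ℝ) (J : E →L[ℝ] E) : E →L[ℝ] E →L[ℝ] ℝ :=
  C.bilinearComp (pr J) (pr J) + ((et C J).comp J).smulRight al - al.smulRight ((et C J).comp J)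
    - (et C J).smulRight (be J) + (be J).smulRight (et C J)
    + h • ((be J).smulRight al - al.smulRight (be J))

lemma form_apply (C : E →L[ℝ] E →L[ℝ] ℝ) (h : ℝ) (J : E →L[ℝ] E) (u v : E) :
    form C h J u v = C (pr J u) (pr J v) + et C J (J u) * v 0 - u 0 * et C J (J v)
      - et C J u * be J v + be J u * et C J v + h * (be J u * v 0 - u 0 * be J v) := by
  simp [form]

lemma et_apply (C : E →L[ℝ] E →L[ℝ] ℝ) (J : E →L[ℝ] E) (v : E) :
    et C J v = C (pr J v) (J (xi J)) := by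
  simp [et]

lemma be_apply (J : E →L[ℝ] E) (v : E) : be J v = J v 0 := rfl

lemma pr_apply (J : E →L[ℝ] E) (v : E) :
    pr J v = v - v 0 • xi J + be J v • J (xi J) := by
  simp [pr]

lemma span_of_finrank_two {V : Type*} [AddCommGroup V] [Module ℝ V] [Module.Finite ℝ V]
    (hV : Module.finrank ℝ V = 2) (w w' jw : V)
    (hli : ∀ s t : ℝ, s • w + t • jw = 0 → s = 0 ∧ t = 0) :
    ∃ a b : ℝ, w' = a • w + b • jw := by
  have hli' : LinearIndependent ℝ ![w, jw] := LinearIndependent.pair_iff.2 hli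
  have hspan := hli'.span_eq_top_of_card_eq_finrank' (by simp [hV])
  have hmem : w' ∈ Submodule.span ℝ (Set.range ![w, jw]) := by
    rw [hspan]; trivial
  have hr : Set.range ![w, jw] = {w, jw} := by
    ext x; simp [eq_comm, or_comm]
  rw [hr, Submodule.mem_span_pair] at hmem
  obtain ⟨a, b, hab⟩ := hmem
  exact ⟨a, b, hab.symm⟩

section
variable {J : E →L[ℝ] E} (hJ : ∀ v, J (J v) = -v)
include hJ

lemma Bn_pos : 0 < Bn J := by
  have h0 : 0 ≤ Bn J := Finset.sum_nonneg fun i _ => sq_nonneg _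
  rcases h0.eq_or_lt with h | h
  swap
  · exact h
  exfalso
  have hb : ∀ i, bvec J i = 0 := by
    intro i
    have := (Finset.sum_eq_zero_iff_of_nonneg (fun i _ => sq_nonneg (bvec J i))).1 h.symm i
      (Finset.mem_univ i)
    exact pow_eq_zero_iff (two_ne_zero) |>.1 this
  have hexp : ∀ v : E, be J v = v 0 * be J (Pi.single 0 1) := by
    intro v
    have hv : v = ∑ i, v i • (Pi.single i (1:ℝ) : E) := by
      ext j
      simp [Finset.sum_apply, Pi.single_apply]
    conv_lhs => rw [hv]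
    rw [map_sum]
    simp only [map_smul, smul_eq_mul]
    rw [Finset.sum_eq_single 0]
    · intro i _ hi
      have := hb i
      simp only [bvec, if_neg hi] at this
      rw [be_apply, this, mul_zero]
    · intro h; exact absurd (Finset.mem_univ _) h
  have h1 := hexp (J (Pi.single 0 1))
  rw [be_apply, hJ, ← be_apply] at h1
  simp at h1
  nlinarith [sq_nonneg (be J (Pi.single 0 1)), h1]

lemma be_bvec : be J (bvec J) = Bn J := by
  have hv : bvec J = ∑ i, bvec J i • (Pi.single i (1:ℝ) : E) := by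
    ext j
    simp [Finset.sum_apply, Pi.single_apply]
  conv_lhs => rw [hv]
  rw [map_sum]
  unfold Bn
  apply Finset.sum_congr rfl
  intro i _
  simp only [map_smul, smul_eq_mul, be_apply]
  by_cases hi : i = 0
  · subst hi; simp [bvec]
  · simp only [bvec, if_neg hi]; ring

lemma xi_zero : xi J 0 = 1 := by
  simp [xi, bvec]

lemma be_xi : be J (xi J) = 0 := by
  have := Bn_pos hJ
  unfold xi
  rw [map_sub, map_smul, be_bvec hJ, smul_eq_mul, div_mul_cancel₀ _ this.ne']
  rw [be_apply]; ring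

lemma Jxi_zero : J (xi J) 0 = 0 := be_xi hJ

lemma be_Jxi : be J (J (xi J)) = -1 := by
  rw [be_apply, hJ]; simp [xi_zero hJ]

lemma be_J (v : E) : be J (J v) = - v 0 := by
  rw [be_apply, hJ]; rfl

lemma pr_zero (v : E) : pr J v 0 = 0 := by
  rw [pr_apply]; simp [xi_zero hJ, Jxi_zero hJ]

lemma be_pr (v : E) : be J (pr J v) = 0 := by
  rw [pr_apply]
  simp [be_xi hJ, be_Jxi hJ]

lemma pr_J (v : E) : pr J (J v) = J (pr J v) := by
  rw [pr_apply, pr_apply, be_J hJ, map_add, map_sub, map_smul, map_smul, hJ, be_apply]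
  ext i; simp; ring

lemma pr_of_mem {w : E} (h0 : w 0 = 0) (h1 : be J w = 0) : pr J w = w := by
  rw [pr_apply, h0, h1]; simp

lemma ker_finrank : Module.finrank ℝ (LinearMap.ker (al.prod (be J)).toLinearMap) = 2 := by
  have hsurj : Function.Surjective (al.prod (be J)).toLinearMap := by
    intro y
    refine ⟨y.1 • xi J - y.2 • J (xi J), ?_⟩
    have : (al.prod (be J)).toLinearMap (y.1 • xi J - y.2 • J (xi J))
      = ((y.1 • xi J - y.2 • J (xi J)) 0, be J (y.1 • xi J - y.2 • J (xi J))) := rfl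
    rw [this]
    ext
    · simp [xi_zero hJ, Jxi_zero hJ]
    · simp [be_xi hJ, be_Jxi hJ]
  have := (al.prod (be J)).toLinearMap.finrank_range_add_finrank_ker
  have h2 : Module.finrank ℝ (ℝ × ℝ) = 2 := by simp
  have h4 : Module.finrank ℝ E = 4 := by simp
  rw [LinearMap.range_eq_top.2 hsurj, finrank_top, h2, h4] at this
  omega

lemma mem_ker_iff (v : E) : v ∈ LinearMap.ker (al.prod (be J)).toLinearMap ↔ v 0 = 0 ∧ be J v = 0 := by
  rw [LinearMap.mem_ker]
  have : (al.prod (be J)).toLinearMap v = (v 0, be J v) := rfl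
  rw [this, Prod.mk_eq_zero]

lemma span_W {w w' : E} (hw : w ≠ 0) (h0 : w 0 = 0)
    (h1 : be J w = 0) (h0' : w' 0 = 0) (h1' : be J w' = 0) : ∃ a b : ℝ, w' = a • w + b • J w := by
  have hwm := (mem_ker_iff hJ w).2 ⟨h0, h1⟩
  have hwm' := (mem_ker_iff hJ w').2 ⟨h0', h1'⟩
  have hJwm := (mem_ker_iff hJ (J w)).2 ⟨h1, by rw [be_J hJ, h0, neg_zero]⟩
  obtain ⟨a, b, hab⟩ := span_of_finrank_two (ker_finrank hJ) ⟨w, hwm⟩ ⟨w', hwm'⟩ ⟨J w, hJwm⟩ (by
    intro s t hst
    have hst' : s • w + t • J w = 0 := congrArg Subtype.val hst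
    have h2 : s • J w - t • w = 0 := by
      have := congrArg J hst'
      rw [map_add, map_smul, map_smul, hJ, map_zero] at this
      rw [← this]; simp [sub_eq_add_neg]
    have h3 : (s ^ 2 + t ^ 2) • w = 0 := by
      have e : (s ^ 2 + t ^ 2) • w = s • (s • w + t • J w) - t • (s • J w - t • w) := by
        ext i; simp; ring
      rw [e, hst', h2]; simp
    have h4 : s ^ 2 + t ^ 2 = 0 := by
      rcases smul_eq_zero.1 h3 with h | h
      · exact h
      · exact absurd h hw
    constructor <;> nlinarith [sq_nonneg s, sq_nonneg t])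
  exact ⟨a, b, congrArg Subtype.val hab⟩

/-- any alternating form is invariant on the complex line `W`. -/
lemma inv_on_W (C : E →L[ℝ] E →L[ℝ] ℝ) (hC : ∀ v, C v v = 0) {w w' : E} (h0 : w 0 = 0)
    (h1 : be J w = 0) (h0' : w' 0 = 0) (h1' : be J w' = 0) : C (J w) (J w') = C w w' := by
  have hskew : ∀ a b, C a b = - C b a := by
    intro a b
    have := hC (a + b)
    simp only [map_add, add_apply, hC] at this
    linarith
  by_cases hw : w = 0
  · rw [hw]; simp
  obtain ⟨a, b, hab⟩ := span_W hJ hw h0 h1 h0' h1'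
  rw [hab]
  simp only [map_add, map_smul, hJ, map_neg, smul_eq_mul, hC]
  rw [hskew (J w) w]
  ring

lemma form_inv (C : E →L[ℝ] E →L[ℝ] ℝ) (hC : ∀ v, C v v = 0) (h : ℝ) (u v : E) :
    form C h J (J u) (J v) = form C h J u v := by
  rw [form_apply, form_apply, pr_J hJ, pr_J hJ,
    inv_on_W hJ C hC (pr_zero hJ u) (be_pr hJ u) (pr_zero hJ v) (be_pr hJ v), be_J hJ, be_J hJ, hJ, hJ,
    map_neg, map_neg, ← be_apply J u, ← be_apply J v]
  ring

lemma form_taming (C : E →L[ℝ] E →L[ℝ] ℝ) (h : ℝ) (v : E) :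
    form C h J v (J v) = (C (pr J v) (J (pr J v)) + 2 * (v 0 * et C J v + be J v * et C J (J v)))
      + h * (v 0 ^ 2 + be J v ^ 2) := by
  rw [form_apply, pr_J hJ, be_J hJ, hJ, map_neg, ← be_apply J v]
  ring

lemma form_alt (C : E →L[ℝ] E →L[ℝ] ℝ) (hC : ∀ v, C v v = 0) (h : ℝ) (v : E) :
    form C h J v v = 0 := by
  rw [form_apply, hC]; ring

lemma form_horiz (C : E →L[ℝ] E →L[ℝ] ℝ) (hC : ∀ v, C v v = 0) (h : ℝ) {u v : E} (hu : u 0 = 0)
    (hv : v 0 = 0) : form C h J u v = C u v := by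
  have hskew : ∀ a b, C a b = - C b a := by
    intro a b
    have := hC (a + b)
    simp only [map_add, add_apply, hC] at this
    linarith
  rw [form_apply, et_apply C J u, et_apply C J v, hu, hv, pr_apply J u, pr_apply J v, hu, hv]
  simp only [zero_smul, sub_zero, map_add, add_apply, map_smul, smul_apply,
    smul_eq_mul, hC]
  rw [hskew (J (xi J)) v]
  ring

end

end Vale.Agent.H20.P204
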