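import Mathlib
import Vale.Agent.H20.P204Lin

open scoped ContDiff
open MeasureTheory Set

namespace Vale.Agent.H20.P204

/-- A smooth almost complex structure on the closed four-manifold `T⁴ = ℝ⁴/ℤ⁴`, written as a
`ℤ⁴`-periodic field of endomorphisms `J_p` of `ℝ⁴` with `J_p² = -id`. -/
structure AlmostComplexStructure where
  J : (Fin 4 → ℝ) → (Fin 4 → ℝ) →L[ℝ] (Fin 4 → ℝ)
  smooth : ContDiff ℝ ∞ J
  sq : ∀ p v, J p (J p v) = -v
  periodic : ∀ (p : Fin 4 → ℝ) (n : Fin 4 → ℤ), J (p + fun i => (n i : ℝ)) = J p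

/-- A smooth closed two-form on `T⁴ = ℝ⁴/ℤ⁴`: a smooth `ℤ⁴`-periodic field of alternating bilinear
forms `B_p` with `dB = 0`, the exterior derivative being written on constant vector fields. -/
structure ClosedTwoForm where
  B : (Fin 4 → ℝ) → (Fin 4 → ℝ) →L[ℝ] (Fin 4 → ℝ) →L[ℝ] ℝ
  smooth : ContDiff ℝ ∞ B
  alt : ∀ p v, B p v v = 0
  periodic : ∀ (p : Fin 4 → ℝ) (n : Fin 4 → ℤ), B (p + fun i => (n i : ℝ)) = B p
  closed : ∀ p u v w, fderiv ℝ B p u v w + fderiv ℝ B p v w u + fderiv ℝ B p w u v = 0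

/-- `η` tames `K`. -/
def Tames (η : ClosedTwoForm) (K : AlmostComplexStructure) : Prop :=
  ∀ p v, v ≠ 0 → 0 < η.B p v (K.J p v)

/-- `η` is compatible with `K`. -/
def Compatible (η : ClosedTwoForm) (K : AlmostComplexStructure) : Prop :=
  Tames η K ∧ ∀ p u v, η.B p (K.J p u) (K.J p v) = η.B p u v


lemma diff_eval (η : ClosedTwoForm) (u v : E) : Differentiable ℝ fun p => η.B p u v := by
  have h : ContDiff ℝ ∞ fun p => η.B p u v :=
    (η.smooth.clm_apply contDiff_const).clm_apply contDiff_const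
  exact h.differentiable (by simp)

lemma fderiv_eval (η : ClosedTwoForm) (u v p z : E) :
    fderiv ℝ (fun p => η.B p u v) p z = fderiv ℝ η.B p z u v := by
  have h0 : HasFDerivAt η.B (fderiv ℝ η.B p) p := ((η.smooth.differentiable (by simp)) p).hasFDerivAt
  have h1 := (h0.clm_apply (hasFDerivAt_const u p)).clm_apply (hasFDerivAt_const v p)
  rw [h1.fderiv]
  simp

lemma slice_le (η : ClosedTwoForm) (u v : E) (hu : u 0 = 0) (hv : v 0 = 0) (s t : ℝ) (hst : s ≤ t) :
    ∫ x in Icc (0 : Fin 3 → ℝ) 1, η.B (Fin.cons s x) u v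
      = ∫ x in Icc (0 : Fin 3 → ℝ) 1, η.B (Fin.cons t x) u v := by
  set e0 : E := Pi.single 0 1 with he0
  set f : Fin 4 → E → ℝ := fun i p =>
    (if i = 0 then (1:ℝ) else 0) * η.B p u v + (u i * η.B p v e0 + v i * η.B p e0 u) with hf
  have hfd : ∀ i, Differentiable ℝ (f i) := fun i =>
    ((diff_eval η u v).const_mul _).add
      (((diff_eval η v e0).const_mul _).add ((diff_eval η e0 u).const_mul _))
  have hf' : ∀ i p z, fderiv ℝ (f i) p z = (if i = 0 then (1:ℝ) else 0) * fderiv ℝ η.B p z u v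
      + (u i * fderiv ℝ η.B p z v e0 + v i * fderiv ℝ η.B p z e0 u) := by
    intro i p z
    have h1 := ((diff_eval η u v) p).hasFDerivAt.const_mul (if i = 0 then (1:ℝ) else 0)
    have h2 := ((diff_eval η v e0) p).hasFDerivAt.const_mul (u i)
    have h3 := ((diff_eval η e0 u) p).hasFDerivAt.const_mul (v i)
    have h4 : HasFDerivAt (f i) _ p := h1.add (h2.add h3)
    rw [h4.fderiv]
    simp only [add_apply, smul_apply, fderiv_eval, smul_eq_mul]
  have hsum : ∀ p, ∑ i, fderiv ℝ (f i) p (Pi.single i 1) = 0 := by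
    intro p
    have hexp : ∀ (w : E) (a b : E), fderiv ℝ η.B p w a b
        = ∑ i, w i * fderiv ℝ η.B p (Pi.single i 1) a b := by
      intro w a b
      have hw : w = ∑ i, w i • (Pi.single i (1:ℝ) : E) := by
        ext j
        simp [Finset.sum_apply, Pi.single_apply]
      conv_lhs => rw [hw]
      simp [map_sum]
    have h1 := η.closed p e0 u v
    rw [hexp u v e0, hexp v e0 u] at h1
    rw [← h1]
    simp only [hf', Finset.sum_add_distrib, ite_mul, one_mul, zero_mul, Finset.sum_ite_eq',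
      Finset.mem_univ, if_true]
    rw [add_assoc]
  have hdiv := integral_divergence_of_hasFDerivAt_off_countable' (n := 3)
    (a := (Fin.cons s 0 : Fin 4 → ℝ)) (b := (Fin.cons t 1 : Fin 4 → ℝ))
    (by
      intro i
      refine Fin.cases ?_ (fun j => ?_) i
      · simpa using hst
      · simp)
    f (fun i p => fderiv ℝ (f i) p) ∅ Set.countable_empty
    (fun i => (hfd i).continuous.continuousOn)
    (fun p _ i => (hfd i p).hasFDerivAt)
    (by
      apply IntegrableOn.congr_fun (f := fun _ => (0:ℝ))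
      · exact integrableOn_zero
      · intro p _
        exact (hsum p).symm
      · exact measurableSet_Icc)
  have hz : (∫ x in Icc (Fin.cons s 0 : Fin 4 → ℝ) (Fin.cons t 1 : Fin 4 → ℝ),
      ∑ i, fderiv ℝ (f i) x (Pi.single i 1)) = 0 := by
    simp only [hsum]
    simp
  rw [hz, Fin.sum_univ_succ] at hdiv
  have hrest : ∀ j : Fin 3, (∫ x in Icc ((Fin.cons s 0 : Fin 4 → ℝ) ∘ Fin.succAbove j.succ)
      ((Fin.cons t 1 : Fin 4 → ℝ) ∘ Fin.succAbove j.succ),
        f j.succ (Fin.insertNth j.succ ((Fin.cons t 1 : Fin 4 → ℝ) j.succ) x))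
      - ∫ x in Icc ((Fin.cons s 0 : Fin 4 → ℝ) ∘ Fin.succAbove j.succ)
      ((Fin.cons t 1 : Fin 4 → ℝ) ∘ Fin.succAbove j.succ),
        f j.succ (Fin.insertNth j.succ ((Fin.cons s 0 : Fin 4 → ℝ) j.succ) x) = 0 := by
    intro j
    have : ∀ x : Fin 3 → ℝ, f j.succ (Fin.insertNth j.succ ((Fin.cons t 1 : Fin 4 → ℝ) j.succ) x)
        = f j.succ (Fin.insertNth j.succ ((Fin.cons s 0 : Fin 4 → ℝ) j.succ) x) := by
      intro x
      have hp := η.periodic (Fin.insertNth j.succ ((Fin.cons s 0 : Fin 4 → ℝ) j.succ) x)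
        (Pi.single j.succ 1)
      have hq : (Fin.insertNth j.succ ((Fin.cons s 0 : Fin 4 → ℝ) j.succ) x : Fin 4 → ℝ)
          + (fun i => (((Pi.single j.succ 1 : Fin 4 → ℤ) i : ℤ) : ℝ))
          = Fin.insertNth j.succ ((Fin.cons t 1 : Fin 4 → ℝ) j.succ) x := by
        ext i
        by_cases hi : i = j.succ
        · subst hi
          simp
        · obtain ⟨k, rfl⟩ := Fin.exists_succAbove_eq hi
          simp [hi]
      rw [hq] at hp
      simp only [hf, hp]
    simp only [this, sub_self]
  simp only [hrest, Finset.sum_const_zero, add_zero] at hdiv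
  have hL0 : ∀ q, f 0 q = η.B q u v := by
    intro q
    simp [hf, hu, hv]
  simp only [hL0] at hdiv
  have ea : (Fin.cons s 0 : Fin 4 → ℝ) ∘ Fin.succAbove 0 = 0 := by
    ext i; simp
  have eb : (Fin.cons t 1 : Fin 4 → ℝ) ∘ Fin.succAbove 0 = 1 := by
    ext i; simp
  rw [ea, eb] at hdiv
  simp only [Fin.insertNth_zero', Fin.cons_zero] at hdiv
  linarith

lemma slice_const (η : ClosedTwoForm) (u v : E) (hu : u 0 = 0) (hv : v 0 = 0) (s t : ℝ) :
    ∫ x in Icc (0 : Fin 3 → ℝ) 1, η.B (Fin.cons s x) u v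
      = ∫ x in Icc (0 : Fin 3 → ℝ) 1, η.B (Fin.cons t x) u v := by
  rcases le_total s t with h | h
  · exact slice_le η u v hu hv s t h
  · exact (slice_le η u v hu hv t s h).symm

/-- entries of the slice average at height zero -/
noncomputable def cij (η : ClosedTwoForm) (i j : Fin 4) : ℝ :=
  ∫ x in Icc (0 : Fin 3 → ℝ) 1, η.B (Fin.cons 0 x) (Pi.single i 1) (Pi.single j 1)

/-- the slice average at height zero -/
noncomputable def avg (η : ClosedTwoForm) : E →L[ℝ] E →L[ℝ] ℝ :=
  ∑ i, ∑ j, cij η i j • (ContinuousLinearMap.proj (R := ℝ) (φ := fun _ : Fin 4 => ℝ) i).smulRight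
    (ContinuousLinearMap.proj (R := ℝ) (φ := fun _ : Fin 4 => ℝ) j)

lemma cont_slice (η : ClosedTwoForm) (s : ℝ) (u v : E) :
    Continuous fun x : Fin 3 → ℝ => η.B (Fin.cons s x) u v := by
  have h : Continuous fun x : Fin 3 → ℝ => (Fin.cons s x : Fin 4 → ℝ) := by
    apply continuous_pi
    intro i
    refine Fin.cases ?_ (fun j => ?_) i
    · simpa using continuous_const
    · simpa using continuous_apply j
  exact (diff_eval η u v).continuous.comp h

lemma avg_apply (η : ClosedTwoForm) (u v : E) :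
    avg η u v = ∫ x in Icc (0 : Fin 3 → ℝ) 1, η.B (Fin.cons 0 x) u v := by
  have hexp : ∀ (B : E →L[ℝ] E →L[ℝ] ℝ), B u v
      = ∑ i, ∑ j, u i * v j * B (Pi.single i 1) (Pi.single j 1) := by
    intro B
    have hu : u = ∑ i, u i • (Pi.single i (1:ℝ) : E) := by
      ext j
      simp [Finset.sum_apply, Pi.single_apply]
    have hv : v = ∑ i, v i • (Pi.single i (1:ℝ) : E) := by
      ext j
      simp [Finset.sum_apply, Pi.single_apply]
    conv_lhs => rw [hu, hv]
    simp only [map_sum, map_smul, sum_apply, smul_apply, smul_eq_mul, Finset.mul_sum]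
    rw [Finset.sum_comm]
    apply Finset.sum_congr rfl; intro i _
    apply Finset.sum_congr rfl; intro j _
    ring
  have hint : ∀ i j, IntegrableOn (fun x : Fin 3 → ℝ => η.B (Fin.cons 0 x) (Pi.single i 1) (Pi.single j 1))
      (Icc 0 1) := fun i j => (cont_slice η 0 _ _).continuousOn.integrableOn_compact isCompact_Icc
  simp only [hexp (η.B _)]
  rw [integral_finsetSum]
  swap
  · intro i _
    apply integrable_finsetSum
    intro j _
    exact (hint i j).const_mul _
  simp only [avg, sum_apply, smul_apply, ContinuousLinearMap.smulRight_apply,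
    ContinuousLinearMap.proj_apply, smul_eq_mul]
  apply Finset.sum_congr rfl; intro i _
  rw [integral_finsetSum]
  swap
  · intro j _
    exact (hint i j).const_mul _
  apply Finset.sum_congr rfl; intro j _
  rw [integral_const_mul, cij]
  ring

lemma avg_alt (η : ClosedTwoForm) (v : E) : avg η v v = 0 := by
  rw [avg_apply]
  simp [η.alt]

/-- positivity of the slice average on complex lines inside the slices -/
lemma avg_pos (η : ClosedTwoForm) (K : AlmostComplexStructure) (hK : ∀ p q : E, p 0 = q 0 → K.J p = K.J q)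
    (ht : Tames η K) (p w : E) (hw : w ≠ 0) (h0 : w 0 = 0) (h1 : K.J p w 0 = 0) :
    0 < avg η w (K.J p w) := by
  rw [avg_apply, slice_const η w (K.J p w) h0 h1 0 (p 0)]
  have hc : Continuous fun x : Fin 3 → ℝ => η.B (Fin.cons (p 0) x) w (K.J p w) :=
    cont_slice η (p 0) _ _
  have hpos : ∀ x : Fin 3 → ℝ, 0 < η.B (Fin.cons (p 0) x) w (K.J p w) := by
    intro x
    have := ht (Fin.cons (p 0) x) w hw
    rwa [hK (Fin.cons (p 0) x) p (by simp)] at this
  obtain ⟨x0, -, hx0⟩ := isCompact_Icc.exists_isMinOn (s := Icc (0:Fin 3 → ℝ) 1)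
    ⟨0, by simp⟩ hc.continuousOn
  have hmin : ∀ x ∈ Icc (0:Fin 3 → ℝ) 1, η.B (Fin.cons (p 0) x0) w (K.J p w)
      ≤ η.B (Fin.cons (p 0) x) w (K.J p w) := fun x hx => hx0 hx
  have hvol : (volume.real (Icc (0:Fin 3 → ℝ) 1)) = 1 := by
    rw [Measure.real, Real.volume_Icc_pi]
    simp
  calc 0 < η.B (Fin.cons (p 0) x0) w (K.J p w) := hpos _
    _ = ∫ x in Icc (0 : Fin 3 → ℝ) 1, η.B (Fin.cons (p 0) x0) w (K.J p w) := by
        rw [setIntegral_const, hvol]; simp
    _ ≤ _ := by
        apply setIntegral_mono_on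
        · exact integrableOn_const (by rw [Real.volume_Icc_pi]; simp)
        · exact hc.continuousOn.integrableOn_compact isCompact_Icc
        · exact measurableSet_Icc
        · exact hmin

/-- smoothness of the constructed form -/
lemma form_smooth {J : E → E →L[ℝ] E} (hJ : ContDiff ℝ ∞ J) (hsq : ∀ p v, J p (J p v) = -v)
    (C : E →L[ℝ] E →L[ℝ] ℝ) (h : ℝ) : ContDiff ℝ ∞ fun p => form C h (J p) := by
  have hJe : ∀ v : E, ContDiff ℝ ∞ fun p => J p v := fun v => hJ.clm_apply contDiff_const
  have hJ0 : ∀ v : E, ContDiff ℝ ∞ fun p => J p v 0 := fun v =>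
    (al.contDiff.comp (hJe v) : ContDiff ℝ ∞ fun p => al (J p v))
  have hb : ContDiff ℝ ∞ fun p => bvec (J p) := by
    rw [contDiff_pi]
    intro i
    by_cases hi : i = 0
    · simp only [bvec, hi, if_true]; exact contDiff_const
    · simp only [bvec, hi, if_false]; exact hJ0 _
  have hB : ContDiff ℝ ∞ fun p => Bn (J p) := by
    unfold Bn
    apply ContDiff.sum
    intro i _
    exact (contDiff_pi.1 hb i).pow 2
  have hxi : ContDiff ℝ ∞ fun p => xi (J p) := by
    unfold xi
    exact contDiff_const.sub (((hJ0 _).div hB (fun p => (Bn_pos (hsq p)).ne')).smul hb)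
  have hJxi : ContDiff ℝ ∞ fun p => J p (xi (J p)) := hJ.clm_apply hxi
  have hbe : ∀ v : E, ContDiff ℝ ∞ fun p => be (J p) v := fun v => hJ0 v
  have hpr : ∀ w : E → E, ContDiff ℝ ∞ w → ContDiff ℝ ∞ fun p => pr (J p) (w p) := by
    intro w hw
    simp only [pr_apply, be_apply]
    have h1 : ContDiff ℝ ∞ fun p => w p 0 := al.contDiff.comp hw
    have h2 : ContDiff ℝ ∞ fun p => J p (w p) 0 := al.contDiff.comp (hJ.clm_apply hw)
    exact (hw.sub (h1.smul hxi)).add (h2.smul hJxi)
  have het : ∀ w : E → E, ContDiff ℝ ∞ w → ContDiff ℝ ∞ fun p => et C (J p) (w p) := by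
    intro w hw
    simp only [et_apply]
    exact (C.contDiff.comp (hpr w hw)).clm_apply hJxi
  rw [contDiff_clm_apply_iff]
  intro u
  rw [contDiff_clm_apply_iff]
  intro v
  simp only [form_apply]
  have a1 := (C.contDiff.comp (hpr (fun _ => u) contDiff_const)).clm_apply
    (hpr (fun _ => v) contDiff_const)
  have a2 := het _ (hJe u)
  have a3 := het _ (hJe v)
  have a4 := het (fun _ => u) contDiff_const
  have a5 := het (fun _ => v) contDiff_const
  have a6 := hbe u
  have a7 := hbe v
  exact (((((a1.add (a2.mul contDiff_const)).sub (contDiff_const.mul a3)).sub (a4.mul a7)).add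
    (a6.mul a5)).add (contDiff_const.mul ((a6.mul contDiff_const).sub (contDiff_const.mul a7))))

/-- a large constant makes the constructed form tame -/
lemma exists_h (η : ClosedTwoForm) (K : AlmostComplexStructure)
    (hK : ∀ p q : E, p 0 = q 0 → K.J p = K.J q) (ht : Tames η K) :
    ∃ h : ℝ, ∀ p v : E, v ≠ 0 → 0 < form (avg η) h (K.J p) v (K.J p v) := by
  set C := avg η with hC
  -- functions on the compact set of pairs (s, v)
  set P : ℝ → E := fun s => Pi.single 0 s with hP
  have hPc : Continuous P := by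
    apply continuous_pi
    intro i
    by_cases hi : i = 0
    · subst hi
      have : (fun s : ℝ => P s 0) = id := by ext s; simp [hP]
      rw [this]; exact continuous_id
    · simpa [hP, hi] using continuous_const
  have hJc : Continuous fun x : ℝ × E => K.J (P x.1) := K.smooth.continuous.comp (hPc.comp continuous_fst)
  have hFc : Continuous fun x : ℝ × E => form C 0 (K.J (P x.1)) x.2 (K.J (P x.1) x.2) := by
    have h1 : Continuous fun x : ℝ × E => form C 0 (K.J (P x.1)) :=
      (form_smooth K.smooth K.sq C 0).continuous.comp (hPc.comp continuous_fst)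
    exact (h1.clm_apply continuous_snd).clm_apply (hJc.clm_apply continuous_snd)
  have hSc : Continuous fun x : ℝ × E => x.2 0 ^ 2 + be (K.J (P x.1)) x.2 ^ 2 := by
    have h1 : Continuous fun x : ℝ × E => K.J (P x.1) x.2 0 :=
      (continuous_apply (0 : Fin 4)).comp (hJc.clm_apply continuous_snd)
    have h2 : Continuous fun x : ℝ × E => x.2 0 := (continuous_apply (0 : Fin 4)).comp continuous_snd
    simp only [be_apply]
    exact (h2.pow 2).add (h1.pow 2)
  set F : ℝ × E → ℝ := fun x => form C 0 (K.J (P x.1)) x.2 (K.J (P x.1) x.2) with hF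
  set S : ℝ × E → ℝ := fun x => x.2 0 ^ 2 + be (K.J (P x.1)) x.2 ^ 2 with hS
  have hform : ∀ (h : ℝ) (p v : E), form C h (K.J p) v (K.J p v)
      = form C 0 (K.J p) v (K.J p v) + h * (v 0 ^ 2 + be (K.J p) v ^ 2) := by
    intro h p v
    rw [form_taming (K.sq p), form_taming (K.sq p)]; ring
  set D : Set (ℝ × E) := Icc (0:ℝ) 1 ×ˢ Metric.sphere (0:E) 1 with hD
  have hDc : IsCompact D := isCompact_Icc.prod (isCompact_sphere _ _)
  set N : Set (ℝ × E) := D ∩ {x | F x ≤ 0} with hN
  have hNc : IsCompact N := hDc.inter_right (isClosed_le hFc continuous_const)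
  have hSpos : ∀ x ∈ N, 0 < S x := by
    intro x hx
    have h0 : 0 ≤ S x := by positivity
    rcases h0.eq_or_lt with h | h
    swap
    · exact h
    exfalso
    have e1 : x.2 0 = 0 := by
      have : x.2 0 ^ 2 + be (K.J (P x.1)) x.2 ^ 2 = 0 := h.symm
      nlinarith [sq_nonneg (x.2 0), sq_nonneg (be (K.J (P x.1)) x.2)]
    have e2 : be (K.J (P x.1)) x.2 = 0 := by
      have : x.2 0 ^ 2 + be (K.J (P x.1)) x.2 ^ 2 = 0 := h.symm
      nlinarith [sq_nonneg (x.2 0), sq_nonneg (be (K.J (P x.1)) x.2)]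
    have hne : x.2 ≠ 0 := by
      have : x.2 ∈ Metric.sphere (0:E) 1 := hx.1.2
      intro h0
      rw [h0] at this
      simp at this
    have hFx : F x = C x.2 (K.J (P x.1) x.2) := by
      simp only [hF]
      rw [form_taming (K.sq _), pr_of_mem (K.sq _) e1 e2, e1, e2]
      ring
    have := avg_pos η K hK ht (P x.1) x.2 hne e1 e2
    rw [← hFx] at this
    exact absurd hx.2 (not_le.2 this)
  obtain ⟨h, hh⟩ : ∃ h : ℝ, ∀ x ∈ D, 0 < F x + h * S x := by
    by_cases hne : N.Nonempty
    · obtain ⟨x0, hx0, hmin⟩ := hNc.exists_isMinOn hne hSc.continuousOn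
      obtain ⟨M, hM⟩ := hDc.exists_bound_of_continuousOn hFc.continuousOn
      have hs0 := hSpos x0 hx0
      have hM0 : 0 ≤ M := (norm_nonneg _).trans (hM x0 hx0.1)
      refine ⟨(M + 1) / S x0, fun x hx => ?_⟩
      have hSx : 0 ≤ S x := by positivity
      by_cases hxN : F x ≤ 0
      · have h1 : S x0 ≤ S x := hmin ⟨hx, hxN⟩
        have h2 := hM x hx
        rw [Real.norm_eq_abs] at h2
        have h3 := neg_abs_le (F x)
        have h4 : M + 1 ≤ (M + 1) / S x0 * S x := by
          rw [div_mul_eq_mul_div, le_div_iff₀ hs0]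
          exact mul_le_mul_of_nonneg_left h1 (by linarith)
        linarith
      · have h5 : 0 ≤ (M + 1) / S x0 * S x := by positivity
        linarith [not_le.1 hxN]
    · refine ⟨0, fun x hx => ?_⟩
      by_contra hc
      apply hne
      exact ⟨x, hx, by simpa using hc⟩
  refine ⟨h, fun p v hv => ?_⟩
  -- reduce to the compact set
  have hJp : K.J p = K.J (P (Int.fract (p 0))) := by
    have h1 := K.periodic (P (Int.fract (p 0))) (Pi.single 0 ⌊p 0⌋)
    rw [← h1]
    apply hK
    simp [hP]
  have hv0 : 0 < ‖v‖ := norm_pos_iff.2 hv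
  have hmem : ((Int.fract (p 0), ‖v‖⁻¹ • v) : ℝ × E) ∈ D := by
    refine ⟨⟨Int.fract_nonneg _, (Int.fract_lt_one _).le⟩, ?_⟩
    simp only [mem_sphere_iff_norm, sub_zero, norm_smul, norm_inv, norm_norm]
    exact inv_mul_cancel₀ hv0.ne'
  have h6 := hh _ hmem
  simp only [hF, hS] at h6
  rw [← hJp, ← hform] at h6
  have e : form C h (K.J p) v (K.J p v) = ‖v‖ ^ 2 * form C h (K.J p) (‖v‖⁻¹ • v) (K.J p (‖v‖⁻¹ • v)) := by
    simp only [map_smul, smul_apply, smul_eq_mul]
    field_simp
  rw [e]
  exact mul_pos (pow_pos hv0 2) h6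

lemma form_closed (K : AlmostComplexStructure) (hK : ∀ p q : E, p 0 = q 0 → K.J p = K.J q)
    (C : E →L[ℝ] E →L[ℝ] ℝ) (hC : ∀ v, C v v = 0) (h : ℝ) (p u v w : E) :
    fderiv ℝ (fun p => form C h (K.J p)) p u v w + fderiv ℝ (fun p => form C h (K.J p)) p v w u
      + fderiv ℝ (fun p => form C h (K.J p)) p w u v = 0 := by
  have hsm := form_smooth K.smooth K.sq C h
  have hd : HasFDerivAt (fun p => form C h (K.J p)) (fderiv ℝ (fun p => form C h (K.J p)) p) p :=
    ((hsm.differentiable (by simp)) p).hasFDerivAt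
  set R := fderiv ℝ (fun p => form C h (K.J p)) p with hR
  -- evaluation of the derivative
  have hev : ∀ a b : E, HasFDerivAt (fun q => form C h (K.J q) a b)
      ((R.flip a).flip b) p := by
    intro a b
    have h1 := (hd.clm_apply (hasFDerivAt_const a p)).clm_apply (hasFDerivAt_const b p)
    refine h1.congr_fderiv ?_
    ext z
    simp
  have hRz : ∀ z a b : E, ((R.flip a).flip b) z = R z a b := fun z a b => by simp
  -- alternating
  have halt : ∀ z a : E, R z a a = 0 := by
    intro z a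
    have h1 := hev a a
    have h2 : (fun q => form C h (K.J q) a a) = fun _ => (0:ℝ) := by
      ext q; exact form_alt (K.sq q) C hC h a
    rw [h2] at h1
    have h3 := h1.unique (hasFDerivAt_const (0:ℝ) p)
    rw [← hRz, h3]; simp
  have hskew : ∀ z a b : E, R z a b = - R z b a := by
    intro z a b
    have := halt z (a + b)
    simp only [map_add, add_apply, halt] at this
    linarith
  -- horizontal pairs
  have hhor : ∀ z a b : E, a 0 = 0 → b 0 = 0 → R z a b = 0 := by
    intro z a b ha hb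
    have h1 := hev a b
    have h2 : (fun q => form C h (K.J q) a b) = fun _ => C a b := by
      ext q; exact form_horiz (K.sq q) C hC h ha hb
    rw [h2] at h1
    have h3 := h1.unique (hasFDerivAt_const (C a b) p)
    rw [← hRz, h3]; simp
  -- horizontal direction
  have hdir : ∀ z a b : E, z 0 = 0 → R z a b = 0 := by
    intro z a b hz
    have h1 : HasDerivAt (fun t : ℝ => form C h (K.J (p + t • z)) a b) (((R.flip a).flip b) z) 0 := by
      have hl : HasDerivAt (fun t : ℝ => p + t • z) z 0 := by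
        simpa using ((hasDerivAt_id (0:ℝ)).smul_const z).const_add p
      have hev' : HasFDerivAt (fun q => form C h (K.J q) a b) ((R.flip a).flip b) (p + (0:ℝ) • z) := by
        simpa using hev a b
      exact hev'.comp_hasDerivAt (0:ℝ) hl
    have h2 : (fun t : ℝ => form C h (K.J (p + t • z)) a b) = fun _ => form C h (K.J p) a b := by
      ext t
      rw [hK (p + t • z) p (by simp [hz])]
    rw [h2] at h1
    rw [← hRz]
    exact h1.unique (hasDerivAt_const (0:ℝ) _)
  set e0 : E := Pi.single 0 1 with he0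
  have hdec : ∀ z a b : E, R z a b = z 0 * (a 0 * R e0 e0 b - b 0 * R e0 e0 a) := by
    intro z a b
    have hz : R (z - z 0 • e0) a b = 0 := hdir _ _ _ (by simp [he0])
    have hab : R e0 (a - a 0 • e0) (b - b 0 • e0) = 0 := hhor _ _ _ (by simp [he0]) (by simp [he0])
    simp only [map_sub, map_smul, sub_apply, smul_apply, smul_eq_mul] at hz hab
    have h3 := halt e0 e0
    have h4 := hskew e0 a e0
    rw [h3, h4] at hab
    have : R z a b = z 0 * R e0 a b := by linarith
    rw [this]
    congr 1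
    linarith
  rw [hdec u v w, hdec v w u, hdec w u v]
  ring

/-- the constructed closed two-form -/
noncomputable def newForm (K : AlmostComplexStructure) (hK : ∀ p q : E, p 0 = q 0 → K.J p = K.J q)
    (C : E →L[ℝ] E →L[ℝ] ℝ) (hC : ∀ v, C v v = 0) (h : ℝ) : ClosedTwoForm where
  B := fun p => form C h (K.J p)
  smooth := form_smooth K.smooth K.sq C h
  alt := fun p v => form_alt (K.sq p) C hC h v
  periodic := fun p n => by rw [K.periodic]
  closed := form_closed K hK C hC h

/-- main result, operator version -/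
theorem main_clm (K : AlmostComplexStructure)
    (hK : ∀ p q : Fin 4 → ℝ, p 0 = q 0 → K.J p = K.J q)
    (hT : ∃ η : ClosedTwoForm, Tames η K) : ∃ η : ClosedTwoForm, Compatible η K := by
  obtain ⟨η, ht⟩ := hT
  obtain ⟨h, hh⟩ := exists_h η K hK ht
  refine ⟨newForm K hK (avg η) (avg_alt η) h, hh, ?_⟩
  intro p u v
  exact form_inv (K.sq p) (avg η) (avg_alt η) h u v

end Vale.Agent.H20.P204
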